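import Mathlib
import Vale.Agent.P230.Density
import Vale.Agent.P230.Defs

/-!
Worst case translative covering density has order at least `n log n`.
-/

namespace Vale.Agent.Results.P230.CoveringLowerNLogN

open Vale.Agent.P230 Filter
open scoped ENNReal

theorem result :
    ∃ ε : ℝ, 0 < ε ∧
      (∃ N : ℕ, ∀ n : ℕ, N ≤ n → ∃ K : Set (EuclideanSpace ℝ (Fin n)),
        IsCompact K ∧ Convex ℝ K ∧ (interior K).Nonempty ∧
          ENNReal.ofReal (ε * n * Real.log n) ≤ thetaT K ∧
          ENNReal.ofReal (ε * n * Real.log n) ≤ thetaL K) ∧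
      ¬ ∃ C : ℝ, ∀ n : ℕ, 1 ≤ n → ∀ K : Set (EuclideanSpace ℝ (Fin n)),
        IsCompact K → Convex ℝ K → (interior K).Nonempty → thetaT K ≤ ENNReal.ofReal (C * n) := by
  refine ⟨eps0, by norm_num [eps0], ?_, ?_⟩
  · obtain ⟨N, hN⟩ := eventually_atTop.1 eventually_mainNum
    refine ⟨N, fun n hn => ?_⟩
    obtain ⟨K, h1, h2, h3, h4⟩ := exists_thetaT_ge (hN n hn)
    exact ⟨K, h1, h2, h3, h4, h4.trans (thetaT_le_thetaL (hN n hn).atoms.large.npos K)⟩
  · rintro ⟨C, hC⟩
    have hlog : Tendsto (fun m : ℕ => Real.log m) atTop atTop :=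
      Real.tendsto_log_atTop.comp tendsto_natCast_atTop_atTop
    obtain ⟨n, hn, hl⟩ :=
      (eventually_mainNum.and (hlog.eventually_gt_atTop (C / eps0))).exists
    obtain ⟨K, h1, h2, h3, h4⟩ := exists_thetaT_ge hn
    have h := h4.trans (hC n hn.atoms.large.npos K h1 h2 h3)
    rw [ENNReal.ofReal_le_ofReal_iff'] at h
    have he : 0 < eps0 := by norm_num [eps0]
    rw [div_lt_iff₀ he] at hl
    rcases h with h | h
    · have hn0 := hn.atoms.large.npos'
      have := mul_lt_mul_of_pos_right hl hn0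
      unfold thr at h
      linarith
    · linarith [hn.thr_one]

end Vale.Agent.Results.P230.CoveringLowerNLogN
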